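import Vale.Agent.P370Z.Red

/-!
# P370, block SM: weighted derivative bounds, the smooth step, the level functions
-/

namespace Vale.Agent.P370Z

open Finset

noncomputable section

/-! ### The `Bd` toolkit -/

namespace Bd

variable {k : ℕ} {C C' : ℝ} {W W' f g : ℝ → ℝ}

lemma cont (h : Bd k C W f) : Continuous f := by
  cases k with
  | zero => exact h.1
  | succ k => exact h.1.continuous

lemma le (h : Bd k C W f) (x : ℝ) : |f x| ≤ C * W x := by
  cases k with
  | zero => exact h.2 x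
  | succ k => exact h.2.1 x

lemma diff (h : Bd (k + 1) C W f) : Differentiable ℝ f := h.1

lemma deriv (h : Bd (k + 1) C W f) : Bd k C W (deriv f) := h.2.2

lemma hasDerivAt (h : Bd (k + 1) C W f) (x : ℝ) : HasDerivAt f (_root_.deriv f x) x :=
  (h.1 x).hasDerivAt

lemma of_hasDerivAt {f' : ℝ → ℝ} (hd : ∀ x, HasDerivAt f (f' x) x) (hb : ∀ x, |f x| ≤ C * W x)
    (h : Bd k C W f') : Bd (k + 1) C W f := by
  refine ⟨fun x => (hd x).differentiableAt, hb, ?_⟩
  rwa [show _root_.deriv f = f' from funext fun x => (hd x).deriv]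

lemma pred (h : Bd (k + 1) C W f) : Bd k C W f := by
  induction k generalizing f with
  | zero => exact ⟨h.cont, h.le⟩
  | succ k ih => exact ⟨h.1, h.2.1, ih h.2.2⟩

lemma of_le {k' : ℕ} (hk : k ≤ k') (h : Bd k' C W f) : Bd k C W f := by
  induction hk with
  | refl => exact h
  | step _ ih => exact ih h.pred

lemma mono (hW : ∀ x, C * W x ≤ C' * W' x) (h : Bd k C W f) : Bd k C' W' f := by
  induction k generalizing f with
  | zero => exact ⟨h.1, fun x => (h.2 x).trans (hW x)⟩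
  | succ k ih => exact ⟨h.1, fun x => (h.2.1 x).trans (hW x), ih h.2.2⟩

lemma monoC (hC : C ≤ C') (hW : ∀ x, 0 ≤ W x) (h : Bd k C W f) : Bd k C' W f :=
  h.mono fun x => mul_le_mul_of_nonneg_right hC (hW x)

lemma congr (h : Bd k C W f) (e : ∀ x, f x = g x) : Bd k C W g := by
  rwa [← show f = g from funext e]

lemma congrW (h : Bd k C W f) (e : ∀ x, W x = W' x) : Bd k C W' f :=
  h.mono fun x => by rw [e]

lemma zero (hW : ∀ x, 0 ≤ C * W x) : Bd k C W fun _ => 0 := by
  induction k with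
  | zero => exact ⟨continuous_const, fun x => by simpa using hW x⟩
  | succ k ih =>
    exact of_hasDerivAt (fun x => hasDerivAt_const x 0) (fun x => by simpa using hW x) ih

lemma const (a : ℝ) : Bd k |a| (fun _ => 1) fun _ => a := by
  cases k with
  | zero => exact ⟨continuous_const, fun x => by simp⟩
  | succ k =>
    exact of_hasDerivAt (fun x => hasDerivAt_const x a) (fun x => by simp)
      (zero fun x => by simp)

lemma add (h : Bd k C W f) (h' : Bd k C' W g) : Bd k (C + C') W fun x => f x + g x := by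
  have hb : ∀ x, |f x + g x| ≤ (C + C') * W x := fun x => by
    rw [add_mul]; exact (abs_add_le _ _).trans (add_le_add (h.le x) (h'.le x))
  induction k generalizing f g with
  | zero => exact ⟨h.1.add h'.1, hb⟩
  | succ k ih =>
    refine of_hasDerivAt (fun x => (h.hasDerivAt x).add (h'.hasDerivAt x)) hb
      (ih h.deriv h'.deriv fun x => ?_)
    rw [add_mul]; exact (abs_add_le _ _).trans (add_le_add (h.deriv.le x) (h'.deriv.le x))

lemma const_mul (a : ℝ) (h : Bd k C W f) : Bd k (|a| * C) W fun x => a * f x := by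
  have hb : ∀ {k : ℕ} {f : ℝ → ℝ}, Bd k C W f → ∀ x, |a * f x| ≤ |a| * C * W x := fun h x => by
    rw [abs_mul, mul_assoc]; exact mul_le_mul_of_nonneg_left (h.le x) (abs_nonneg _)
  induction k generalizing f with
  | zero => exact ⟨continuous_const.mul h.1, hb h⟩
  | succ k ih => exact of_hasDerivAt (fun x => (h.hasDerivAt x).const_mul a) (hb h) (ih h.deriv)

lemma neg (h : Bd k C W f) : Bd k C W fun x => -f x := by
  have := h.const_mul (-1)
  simpa using this

lemma sub (h : Bd k C W f) (h' : Bd k C' W g) : Bd k (C + C') W fun x => f x - g x :=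
  (h.add h'.neg).congr fun x => by ring

lemma mul (h : Bd k C W f) (h' : Bd k C' W' g) :
    Bd k (2 ^ k * C * C') (fun x => W x * W' x) fun x => f x * g x := by
  have hb : ∀ x, |f x * g x| ≤ 2 ^ k * C * C' * (W x * W' x) := fun x => by
    have h1 := h.le x
    have h2 := h'.le x
    have h3 : |f x| * |g x| ≤ C * W x * (C' * W' x) :=
      mul_le_mul h1 h2 (abs_nonneg _) ((abs_nonneg _).trans h1)
    have h4 : 0 ≤ C * W x * (C' * W' x) :=
      mul_nonneg ((abs_nonneg _).trans h1) ((abs_nonneg _).trans h2)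
    have h5 : (1 : ℝ) ≤ 2 ^ k := one_le_pow₀ one_le_two
    rw [abs_mul]
    nlinarith
  induction k generalizing f g with
  | zero => exact ⟨h.1.mul h'.1, hb⟩
  | succ k ih =>
    have key : ∀ {f g : ℝ → ℝ}, Bd k C W f → Bd k C' W' g →
        Bd k (2 ^ k * C * C') (fun x => W x * W' x) fun x => f x * g x := by
      intro f g h h'
      refine ih h h' fun x => ?_
      have h1 := h.le x
      have h2 := h'.le x
      have h3 : |f x| * |g x| ≤ C * W x * (C' * W' x) :=
        mul_le_mul h1 h2 (abs_nonneg _) ((abs_nonneg _).trans h1)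
      have h4 : 0 ≤ C * W x * (C' * W' x) :=
        mul_nonneg ((abs_nonneg _).trans h1) ((abs_nonneg _).trans h2)
      have h5 : (1 : ℝ) ≤ 2 ^ k := one_le_pow₀ one_le_two
      rw [abs_mul]
      nlinarith
    refine of_hasDerivAt (fun x => (h.hasDerivAt x).mul (h'.hasDerivAt x)) hb ?_
    refine ((key h.deriv h'.pred).add (key h.pred h'.deriv)).mono fun x => le_of_eq ?_
    ring

lemma sum {ι : Type*} (s : Finset ι) {C : ι → ℝ} {f : ι → ℝ → ℝ}
    (h : ∀ i ∈ s, Bd k (C i) W (f i)) : Bd k (∑ i ∈ s, C i) W fun x => ∑ i ∈ s, f i x := by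
  classical
  induction s using Finset.induction_on with
  | empty => simpa using zero (k := k) (C := 0) (W := W) (by simp)
  | insert a s ha ih =>
    simp only [sum_insert ha]
    exact (h a (mem_insert_self _ _)).add (ih fun i hi => h i (mem_insert_of_mem hi))

/-- the constant of `Bd.inv` -/
def invC (C : ℝ) : ℕ → ℝ
  | 0 => 1
  | k + 1 => 4 ^ k * C * invC C k ^ 2

lemma one_le_invC (hC : 1 ≤ C) (k : ℕ) : 1 ≤ invC C k := by
  induction k with
  | zero => exact le_rfl
  | succ k ih =>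
    exact one_le_mul_of_one_le_of_one_le
      (one_le_mul_of_one_le_of_one_le (one_le_pow₀ (by norm_num)) hC) (one_le_pow₀ ih)

lemma inv (hC : 1 ≤ C) (hf : ∀ x, 0 < f x) (h : Bd k C f f) :
    Bd k (invC C k) (fun x => 1 / f x) fun x => 1 / f x := by
  have hb : ∀ k x, |1 / f x| ≤ invC C k * (1 / f x) := fun k x => by
    have h0 : 0 < 1 / f x := one_div_pos.mpr (hf x)
    rw [abs_of_pos h0]
    exact le_mul_of_one_le_left h0.le (one_le_invC hC k)
  induction k with
  | zero => exact ⟨continuous_const.div h.1 fun x => (hf x).ne', hb 0⟩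
  | succ k ih =>
    have h1 := ih h.pred
    refine of_hasDerivAt (f' := fun x => -(_root_.deriv f x * (1 / f x) * (1 / f x)))
      (fun x => ?_) (hb _) (((h.deriv.mul h1).mul h1).neg.mono fun x => le_of_eq ?_)
    · have := (h.hasDerivAt x).inv (hf x).ne'
      simp only [one_div]
      refine HasDerivAt.congr_deriv this ?_
      have := (hf x).ne'
      field_simp
    · have := (hf x).ne'
      simp only [invC]
      rw [show (4 : ℝ) ^ k = 2 ^ k * 2 ^ k by rw [← mul_pow]; norm_num]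
      field_simp

lemma contDiff (h : Bd k C W f) : ContDiff ℝ k f := by
  induction k generalizing f with
  | zero => exact contDiff_zero.mpr h.1
  | succ k ih =>
    rw [Nat.cast_succ, contDiff_succ_iff_deriv]
    exact ⟨h.1, by simp, ih h.deriv⟩

lemma contDiff_one (h : Bd (k + 1) C W f) : ContDiff ℝ 1 f := by
  simpa using (h.of_le (by omega : 1 ≤ k + 1)).contDiff

end Bd

/-! ### The smooth step -/

lemma hasDerivAt_betaD (n : ℕ) (t : ℝ) : HasDerivAt (betaD n) (betaD (n + 1) t) t := by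
  unfold betaD
  refine HasDerivAt.fun_sum fun k _ => ?_
  refine HasDerivAt.congr_deriv ((hasDerivAt_pow (9 + k - n) t).const_mul
    ((betaC k : ℝ) * ((9 + k).descFactorial n : ℝ))) ?_
  rw [Nat.descFactorial_succ, Nat.sub_sub]
  push_cast; ring

lemma continuous_betaD (n : ℕ) : Continuous (betaD n : ℝ → ℝ) :=
  continuous_iff_continuousAt.mpr fun t => (hasDerivAt_betaD n t).continuousAt

lemma betaD_zero {n : ℕ} (hn : n ≤ 8) : betaD n (0 : ℝ) = 0 := by
  unfold betaD
  refine sum_eq_zero fun k _ => ?_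
  rw [zero_pow (by omega), mul_zero]

lemma betaD_zero_one : betaD 0 (1 : ℝ) = 1 := by
  simp [betaD, sum_range_succ, betaC]; norm_num

lemma betaD_one {n : ℕ} (h1 : 1 ≤ n) (hn : n ≤ 8) : betaD n (1 : ℝ) = 0 := by
  interval_cases n <;> simp [betaD, sum_range_succ, betaC, Nat.descFactorial] <;> norm_num

lemma betaD_first (t : ℝ) : betaD 1 t = 218790 * (t * (1 - t)) ^ 8 := by
  simp [betaD, sum_range_succ, betaC]; ring

lemma betaD_first_nonneg (t : ℝ) : 0 ≤ betaD 1 t := by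
  rw [betaD_first]; positivity

lemma betaD_mono : Monotone (betaD 0 : ℝ → ℝ) :=
  monotone_of_deriv_nonneg (fun t => (hasDerivAt_betaD 0 t).differentiableAt) fun t => by
    rw [(hasDerivAt_betaD 0 t).deriv]; exact betaD_first_nonneg t

lemma betaD_nonneg {t : ℝ} (h : 0 ≤ t) : 0 ≤ betaD 0 t :=
  (betaD_zero (n := 0) (by omega)).symm.le.trans (betaD_mono h)

lemma betaD_le_one {t : ℝ} (h : t ≤ 1) : betaD 0 t ≤ 1 :=
  (betaD_mono h).trans betaD_zero_one.le

lemma betaD_symm (t : ℝ) : betaD 0 (1 - t) = 1 - betaD 0 t := by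
  simp [betaD, sum_range_succ, betaC]; ring

/-- A bound for all derivatives of the step on `[0, 1]`. -/
def betaB : ℝ := ∑ k ∈ range 9, |(betaC k : ℝ)| * ((9 + k).factorial : ℝ)

lemma abs_betaD_le (n : ℕ) {t : ℝ} (h0 : 0 ≤ t) (h1 : t ≤ 1) : |betaD n t| ≤ betaB := by
  unfold betaD betaB
  refine (abs_sum_le_sum_abs _ _).trans (sum_le_sum fun k _ => ?_)
  have hd : (9 + k).descFactorial n ≤ (9 + k).factorial := by
    by_cases h : n ≤ 9 + k
    · rw [Nat.descFactorial_eq_div h]; exact Nat.div_le_self _ _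
    · rw [Nat.descFactorial_eq_zero_iff_lt.mpr (by omega)]; exact Nat.zero_le _
  rw [abs_mul, abs_mul, Nat.abs_cast, abs_of_nonneg (pow_nonneg h0 _)]
  calc _ ≤ |(betaC k : ℝ)| * ((9 + k).factorial : ℝ) * 1 := by
        gcongr
        exact pow_le_one₀ h0 h1
    _ = _ := mul_one _

lemma one_le_betaB : 1 ≤ betaB := by
  simpa [betaD_zero_one] using abs_betaD_le 0 zero_le_one le_rfl

lemma betaB_pos : 0 < betaB := one_pos.trans_le one_le_betaB

/-! ### The level functions -/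

variable {g g' : ℤ → ℝ}

/-- the formula on a closed cell -/
lemma levD_cell {n : ℕ} (hn : n ≤ 8) (g : ℤ → ℝ) {i : ℤ} {x : ℝ} (h0 : (i : ℝ) ≤ x)
    (h1 : x ≤ i + 1) :
    levD n g x = (if n = 0 then g i else 0) + (g (i + 1) - g i) * betaD n (x - i) := by
  rcases h1.lt_or_eq with h1 | rfl
  · have hf : ⌊x⌋ = i := Int.floor_eq_iff.mpr ⟨h0, h1⟩
    simp only [levD, Int.fract, hf]
  · have hf : ⌊(i : ℝ) + 1⌋ = i + 1 := by simp
    have hr : Int.fract ((i : ℝ) + 1) = 0 := by simp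
    simp only [levD, hf, hr, betaD_zero hn, add_sub_cancel_left]
    by_cases h : n = 0
    · subst h; simp [betaD_zero_one]
    · simp [h, betaD_one (by omega) hn]

lemma cells_mem_nhds (x : ℝ) :
    Set.Icc ((⌈x⌉ - 1 : ℤ) : ℝ) ((⌈x⌉ - 1 : ℤ) + 1) ∪ Set.Icc (⌊x⌋ : ℝ) (⌊x⌋ + 1) ∈ nhds x := by
  refine Filter.mem_of_superset (Ioo_mem_nhds (a := ((⌈x⌉ - 1 : ℤ) : ℝ)) (b := ⌊x⌋ + 1) ?_
    (Int.lt_floor_add_one x)) fun y hy => ?_
  · push_cast; linarith [Int.ceil_lt_add_one x]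
  · rcases le_total y x with h | h
    · left
      refine ⟨hy.1.le, ?_⟩
      push_cast; linarith [Int.le_ceil x]
    · right
      exact ⟨(Int.floor_le x).trans h, hy.2.le⟩

lemma hasDerivAt_levD {n : ℕ} (hn : n ≤ 7) (g : ℤ → ℝ) (x : ℝ) :
    HasDerivAt (levD n g) (levD (n + 1) g x) x := by
  have key : ∀ i : ℤ, (i : ℝ) ≤ x → x ≤ i + 1 →
      HasDerivWithinAt (levD n g) (levD (n + 1) g x) (Set.Icc (i : ℝ) (i + 1)) x := by
    intro i h0 h1
    rw [levD_cell (by omega) g h0 h1]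
    have := (((hasDerivAt_betaD n (x - i)).comp_sub_const x i).const_mul
      (g (i + 1) - g i)).const_add (if n = 0 then g i else 0)
    simp only [Nat.succ_ne_zero, if_false, zero_add]
    exact this.hasDerivWithinAt.congr (fun y hy => levD_cell (by omega) g hy.1 hy.2)
      (levD_cell (by omega) g h0 h1)
  refine ((key (⌈x⌉ - 1) ?_ ?_).union (key ⌊x⌋ (Int.floor_le x)
    (Int.lt_floor_add_one x).le)).hasDerivAt (cells_mem_nhds x)
  · push_cast; linarith [Int.ceil_lt_add_one x]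
  · push_cast; linarith [Int.le_ceil x]

lemma continuous_levD {n : ℕ} (hn : n ≤ 8) (g : ℤ → ℝ) : Continuous (levD n g) := by
  refine continuous_iff_continuousAt.mpr fun x => ?_
  have key : ∀ i : ℤ, (i : ℝ) ≤ x → x ≤ i + 1 →
      ContinuousWithinAt (levD n g) (Set.Icc (i : ℝ) (i + 1)) x := by
    intro i h0 h1
    have hc := continuous_betaD n
    have : Continuous fun y : ℝ =>
        (if n = 0 then g i else 0) + (g (i + 1) - g i) * betaD n (y - i) := by fun_prop
    exact this.continuousWithinAt.congr (fun y hy => levD_cell hn g hy.1 hy.2)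
      (levD_cell hn g h0 h1)
  refine ((key (⌈x⌉ - 1) ?_ ?_).union (key ⌊x⌋ (Int.floor_le x)
    (Int.lt_floor_add_one x).le)).continuousAt (cells_mem_nhds x)
  · push_cast; linarith [Int.ceil_lt_add_one x]
  · push_cast; linarith [Int.le_ceil x]

lemma deriv_levD {n : ℕ} (hn : n ≤ 7) (g : ℤ → ℝ) : deriv (levD n g) = levD (n + 1) g :=
  funext fun x => (hasDerivAt_levD hn g x).deriv

lemma differentiable_levD {n : ℕ} (hn : n ≤ 7) (g : ℤ → ℝ) : Differentiable ℝ (levD n g) :=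
  fun x => (hasDerivAt_levD hn g x).differentiableAt

lemma levD_zero_int (g : ℤ → ℝ) (i : ℤ) : levD 0 g i = g i := by
  simp [levD, betaD_zero]

lemma levD_int {n : ℕ} (h1 : 1 ≤ n) (hn : n ≤ 8) (g : ℤ → ℝ) (i : ℤ) : levD n g i = 0 := by
  simp [levD, betaD_zero hn, show n ≠ 0 by omega]

/-- on a closed cell `levD 0 g` is a convex combination of the end values -/
lemma levD_zero_convex (g : ℤ → ℝ) {i : ℤ} {x : ℝ} (h0 : (i : ℝ) ≤ x) (h1 : x ≤ i + 1) :
    ∃ t : ℝ, 0 ≤ t ∧ t ≤ 1 ∧ levD 0 g x = (1 - t) * g i + t * g (i + 1) := by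
  refine ⟨betaD 0 (x - i), betaD_nonneg (by linarith), betaD_le_one (by linarith), ?_⟩
  rw [levD_cell (by omega) g h0 h1]; simp; ring

lemma le_levD_cell {i : ℤ} {x a : ℝ} (h0 : (i : ℝ) ≤ x) (h1 : x ≤ i + 1) (ha : a ≤ g i)
    (ha' : a ≤ g (i + 1)) : a ≤ levD 0 g x := by
  obtain ⟨t, t0, t1, e⟩ := levD_zero_convex g h0 h1
  rw [e]; nlinarith

lemma levD_le_cell {i : ℤ} {x a : ℝ} (h0 : (i : ℝ) ≤ x) (h1 : x ≤ i + 1) (ha : g i ≤ a)
    (ha' : g (i + 1) ≤ a) : levD 0 g x ≤ a := by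
  obtain ⟨t, t0, t1, e⟩ := levD_zero_convex g h0 h1
  rw [e]; nlinarith

lemma le_levD {a : ℝ} (h : ∀ i, a ≤ g i) (x : ℝ) : a ≤ levD 0 g x :=
  le_levD_cell (Int.floor_le x) (Int.lt_floor_add_one x).le (h _) (h _)

lemma levD_le {a : ℝ} (h : ∀ i, g i ≤ a) (x : ℝ) : levD 0 g x ≤ a :=
  levD_le_cell (Int.floor_le x) (Int.lt_floor_add_one x).le (h _) (h _)

lemma levD_pos (h : ∀ i, 0 < g i) (x : ℝ) : 0 < levD 0 g x :=
  (lt_min (h ⌊x⌋) (h (⌊x⌋ + 1))).trans_le (le_levD_cell (Int.floor_le x)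
    (Int.lt_floor_add_one x).le (min_le_left _ _) (min_le_right _ _))

/-- every point of `[A, B]`, `A < B`, lies in a closed cell inside `[A, B]` -/
lemma exists_cell {A B : ℤ} (hAB : A < B) {x : ℝ} (h0 : (A : ℝ) ≤ x) (h1 : x ≤ B) :
    ∃ i : ℤ, A ≤ i ∧ i + 1 ≤ B ∧ (i : ℝ) ≤ x ∧ x ≤ i + 1 := by
  rcases h1.lt_or_eq with h1 | rfl
  · exact ⟨⌊x⌋, Int.le_floor.mpr h0, Int.floor_lt.mpr h1, Int.floor_le x,
      (Int.lt_floor_add_one x).le⟩
  · exact ⟨B - 1, by omega, by omega, by push_cast; linarith, by push_cast; linarith⟩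

/-- `levD n g` on `[A, B]` depends only on the values of `g` on `[A, B]` -/
lemma levD_congr_on {n : ℕ} (hn : n ≤ 8) {A B : ℤ} (h : ∀ i, A ≤ i → i ≤ B → g i = g' i) {x : ℝ}
    (h0 : (A : ℝ) ≤ x) (h1 : x ≤ B) : levD n g x = levD n g' x := by
  have hAB : A ≤ B := by exact_mod_cast h0.trans h1
  rcases hAB.lt_or_eq with hAB | rfl
  · obtain ⟨i, a1, a2, a3, a4⟩ := exists_cell hAB h0 h1
    rw [levD_cell hn g a3 a4, levD_cell hn g' a3 a4, h i a1 (by omega), h (i + 1) (by omega) a2]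
  · rw [le_antisymm h1 h0]
    rcases Nat.eq_zero_or_pos n with rfl | hp
    · rw [levD_zero_int, levD_zero_int, h A le_rfl le_rfl]
    · rw [levD_int hp hn, levD_int hp hn]

lemma levD_const (n : ℕ) (a x : ℝ) : levD n (fun _ => a) x = if n = 0 then a else 0 := by
  simp [levD]

lemma levD_zero_const_on {A B : ℤ} {a : ℝ} (h : ∀ i, A ≤ i → i ≤ B → g i = a) {x : ℝ}
    (h0 : (A : ℝ) ≤ x) (h1 : x ≤ B) : levD 0 g x = a := by
  rw [levD_congr_on (g' := fun _ => a) (by omega) h h0 h1, levD_const, if_pos rfl]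

lemma levD_const_on {n : ℕ} (h1n : 1 ≤ n) (hn : n ≤ 8) {A B : ℤ} {a : ℝ}
    (h : ∀ i, A ≤ i → i ≤ B → g i = a) {x : ℝ} (h0 : (A : ℝ) ≤ x) (h1 : x ≤ B) :
    levD n g x = 0 := by
  rw [levD_congr_on (g' := fun _ => a) hn h h0 h1, levD_const, if_neg (by omega)]

lemma levD_congr_le {n : ℕ} (hn : n ≤ 8) {B : ℤ} (h : ∀ i, i ≤ B → g i = g' i) {x : ℝ}
    (h1 : x ≤ B) : levD n g x = levD n g' x :=
  levD_congr_on hn (A := ⌊x⌋) (fun i _ hi => h i hi) (Int.floor_le x) h1

lemma levD_congr_ge {n : ℕ} (hn : n ≤ 8) {A : ℤ} (h : ∀ i, A ≤ i → g i = g' i) {x : ℝ}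
    (h0 : (A : ℝ) ≤ x) : levD n g x = levD n g' x :=
  levD_congr_on hn (B := ⌈x⌉) (fun i hi _ => h i hi) h0 (Int.le_ceil x)

lemma le_levD_on {A B : ℤ} {a : ℝ} (h : ∀ i, A ≤ i → i ≤ B → a ≤ g i) {x : ℝ}
    (h0 : (A : ℝ) ≤ x) (h1 : x ≤ B) : a ≤ levD 0 g x := by
  rw [levD_congr_on (g' := fun i => max a (g i)) (by omega)
    (fun i h2 h3 => (max_eq_right (h i h2 h3)).symm) h0 h1]
  exact le_levD (fun i => le_max_left _ _) x

lemma levD_le_on {A B : ℤ} {a : ℝ} (h : ∀ i, A ≤ i → i ≤ B → g i ≤ a) {x : ℝ}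
    (h0 : (A : ℝ) ≤ x) (h1 : x ≤ B) : levD 0 g x ≤ a := by
  rw [levD_congr_on (g' := fun i => min a (g i)) (by omega)
    (fun i h2 h3 => (min_eq_right (h i h2 h3)).symm) h0 h1]
  exact levD_le (fun i => min_le_left _ _) x

lemma levD_add (n : ℕ) (g g' : ℤ → ℝ) (x : ℝ) :
    levD n (fun i => g i + g' i) x = levD n g x + levD n g' x := by
  unfold levD; split_ifs <;> ring

lemma levD_sub (n : ℕ) (g g' : ℤ → ℝ) (x : ℝ) :
    levD n (fun i => g i - g' i) x = levD n g x - levD n g' x := by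
  unfold levD; split_ifs <;> ring

lemma levD_mul (n : ℕ) (a : ℝ) (g : ℤ → ℝ) (x : ℝ) :
    levD n (fun i => a * g i) x = a * levD n g x := by
  unfold levD; split_ifs <;> ring

lemma levD_mul_const (n : ℕ) (a : ℝ) (g : ℤ → ℝ) (x : ℝ) :
    levD n (fun i => g i * a) x = levD n g x * a := by
  unfold levD; split_ifs <;> ring

lemma levD_sum {ι : Type*} (n : ℕ) (s : Finset ι) (g : ι → ℤ → ℝ) (x : ℝ) :
    levD n (fun i => ∑ j ∈ s, g j i) x = ∑ j ∈ s, levD n (g j) x := by
  unfold levD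
  rw [sum_add_distrib, ← sum_mul, sum_sub_distrib]
  split_ifs <;> simp

lemma levD_mono_fun (h : ∀ i, g i ≤ g' i) (x : ℝ) : levD 0 g x ≤ levD 0 g' x := by
  have := le_levD (g := fun i => g' i - g i) (a := 0) (fun i => sub_nonneg.mpr (h i)) x
  rw [levD_sub] at this
  linarith

lemma levD_one_nonneg {A B : ℤ} (h : ∀ i, A ≤ i → i + 1 ≤ B → g i ≤ g (i + 1)) {x : ℝ}
    (h0 : (A : ℝ) ≤ x) (h1 : x ≤ B) : 0 ≤ levD 1 g x := by
  have hAB : A ≤ B := by exact_mod_cast h0.trans h1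
  rcases hAB.lt_or_eq with hAB | rfl
  · obtain ⟨i, a1, a2, a3, a4⟩ := exists_cell hAB h0 h1
    rw [levD_cell (by omega) g a3 a4]
    simp only [one_ne_zero, if_false, zero_add]
    exact mul_nonneg (sub_nonneg.mpr (h i a1 a2)) (betaD_first_nonneg _)
  · rw [le_antisymm h1 h0, levD_int le_rfl (by omega)]

lemma levD_one_nonpos {A B : ℤ} (h : ∀ i, A ≤ i → i + 1 ≤ B → g (i + 1) ≤ g i) {x : ℝ}
    (h0 : (A : ℝ) ≤ x) (h1 : x ≤ B) : levD 1 g x ≤ 0 := by
  have := levD_one_nonneg (g := fun i => -1 * g i) (fun i a b => by linarith [h i a b]) h0 h1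
  rw [levD_mul] at this
  linarith

lemma monotoneOn_levD {A B : ℤ} (h : ∀ i, A ≤ i → i + 1 ≤ B → g i ≤ g (i + 1)) :
    MonotoneOn (levD 0 g) (Set.Icc (A : ℝ) B) :=
  monotoneOn_of_deriv_nonneg (convex_Icc _ _) (continuous_levD (by omega) g).continuousOn
    (differentiable_levD (by omega) g).differentiableOn fun x hx => by
      rw [deriv_levD (by omega)]
      exact levD_one_nonneg h (interior_subset hx).1 (interior_subset hx).2

lemma antitoneOn_levD {A B : ℤ} (h : ∀ i, A ≤ i → i + 1 ≤ B → g (i + 1) ≤ g i) :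
    AntitoneOn (levD 0 g) (Set.Icc (A : ℝ) B) :=
  antitoneOn_of_deriv_nonpos (convex_Icc _ _) (continuous_levD (by omega) g).continuousOn
    (differentiable_levD (by omega) g).differentiableOn fun x hx => by
      rw [deriv_levD (by omega)]
      exact levD_one_nonpos h (interior_subset hx).1 (interior_subset hx).2

lemma abs_levD_le_step {n : ℕ} (h1 : 1 ≤ n) (g : ℤ → ℝ) (x : ℝ) :
    |levD n g x| ≤ betaB * |g (⌊x⌋ + 1) - g ⌊x⌋| := by
  simp only [levD, show n ≠ 0 by omega, if_false, zero_add, abs_mul]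
  rw [mul_comm]
  gcongr
  exact abs_betaD_le n (Int.fract_nonneg x) (Int.fract_lt_one x).le

lemma abs_levD_le (n : ℕ) {M : ℝ} (h : ∀ i, |g i| ≤ M) (x : ℝ) : |levD n g x| ≤ 2 * betaB * M := by
  have hM : 0 ≤ M := (abs_nonneg _).trans (h 0)
  have hB := one_le_betaB
  rcases Nat.eq_zero_or_pos n with rfl | hp
  · have a1 := le_levD (fun i => (abs_le.mp (h i)).1) x
    have a2 := levD_le (fun i => (abs_le.mp (h i)).2) x
    rw [abs_le]; constructor <;> nlinarith
  · refine (abs_levD_le_step hp g x).trans ?_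
    have := (abs_sub _ _).trans (add_le_add (h (⌊x⌋ + 1)) (h ⌊x⌋))
    nlinarith

/-- derivatives of order at least one are controlled by the steps of `g` -/
lemma bd_levD {n k : ℕ} (h1 : 1 ≤ n) (hn : n + k ≤ 8) {W : ℝ → ℝ}
    (h : ∀ x : ℝ, |g (⌊x⌋ + 1) - g ⌊x⌋| ≤ W x) : Bd k betaB W (levD n g) := by
  have hb : ∀ n, 1 ≤ n → ∀ x, |levD n g x| ≤ betaB * W x := fun n h1 x =>
    (abs_levD_le_step h1 g x).trans (mul_le_mul_of_nonneg_left (h x) betaB_pos.le)
  induction k generalizing n with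
  | zero => exact ⟨continuous_levD (by omega) g, hb n h1⟩
  | succ k ih =>
    exact Bd.of_hasDerivAt (hasDerivAt_levD (by omega) g) (hb n h1) (ih (by omega) (by omega))

lemma bd_levD_zero {k : ℕ} (hk : k ≤ 8) {W : ℝ → ℝ}
    (h : ∀ x : ℝ, |g (⌊x⌋ + 1) - g ⌊x⌋| ≤ W x) (h0 : ∀ x, |levD 0 g x| ≤ betaB * W x) :
    Bd k betaB W (levD 0 g) := by
  cases k with
  | zero => exact ⟨continuous_levD (by omega) g, h0⟩
  | succ k => exact Bd.of_hasDerivAt (hasDerivAt_levD (by omega) g) h0 (bd_levD le_rfl (by omega) h)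

/-- bounded values -/
lemma bd_levD_bounded {n k : ℕ} (hn : n + k ≤ 8) {M : ℝ} (h : ∀ i, |g i| ≤ M) :
    Bd k (2 * betaB * M) (fun _ => 1) (levD n g) := by
  induction k generalizing n with
  | zero => exact ⟨continuous_levD (by omega) g, fun x => by simpa using abs_levD_le n h x⟩
  | succ k ih =>
    exact Bd.of_hasDerivAt (hasDerivAt_levD (by omega) g)
      (fun x => by simpa using abs_levD_le n h x) (ih (by omega))

lemma step_le_levD (h : ∀ i, g (i + 1) ≤ 2 * g i) (h' : ∀ i, g i ≤ 2 * g (i + 1)) (x : ℝ) :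
    |g (⌊x⌋ + 1) - g ⌊x⌋| ≤ levD 0 g x := by
  have a1 := h ⌊x⌋
  have a2 := h' ⌊x⌋
  refine le_levD_cell (Int.floor_le x) (Int.lt_floor_add_one x).le ?_ ?_ <;> rw [abs_le] <;>
    constructor <;> linarith

/-- positive values with bounded ratios: all derivatives are bounded by the function itself -/
lemma bd_levD_self {n k : ℕ} (hn : n + k ≤ 8) (h : ∀ i, g (i + 1) ≤ 2 * g i)
    (h' : ∀ i, g i ≤ 2 * g (i + 1)) : Bd k betaB (levD 0 g) (levD n g) := by
  rcases Nat.eq_zero_or_pos n with rfl | hp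
  · refine bd_levD_zero (by omega) (step_le_levD h h') fun x => ?_
    have h0 : 0 ≤ levD 0 g x := (abs_nonneg _).trans (step_le_levD h h' x)
    rw [abs_of_nonneg h0]
    exact le_mul_of_one_le_left h0 one_le_betaB
  · exact bd_levD hp hn (step_le_levD h h')

end

end Vale.Agent.P370Z
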