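import Vale.Agent.P370Z.SM.BdM
import Vale.Agent.P370Z.CH.Comb

/-!
# P370, block SM: the smooth potential
-/

namespace Vale.Agent.P370Z

open MeasureTheory Finset

noncomputable section

namespace SM

lemma wbar_eq (c : ChD) (w : ℕ → ℕ → ℝ) (i j : ℤ) :
    c.wbar w i j = ∑ k ∈ range c.K, ∑ l ∈ range c.K, w k l * c.bump k i * c.bump l j := by
  unfold ChD.wbar ChD.bump
  split_ifs with h
  · rw [sum_eq_single (c.zn i - 1), sum_eq_single (c.zn j - 1)]
    · rw [if_pos (by omega), if_pos (by omega)]; ring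
    · intro l _ hl
      rw [if_neg (show ¬ c.zn j = l + 1 by omega)]; ring
    · intro hl
      exact absurd (mem_range.mpr (by omega)) hl
    · intro k _ hk
      refine sum_eq_zero fun l _ => ?_
      rw [if_neg (show ¬ c.zn i = k + 1 by omega)]; ring
    · intro hl
      exact absurd (mem_range.mpr (by omega)) hl
  · refine (sum_eq_zero fun k hk => sum_eq_zero fun l hl => ?_).symm
    rw [mem_range] at hk hl
    beta_reduce
    by_cases h1 : c.zn i = k + 1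
    · rw [if_neg (show ¬ c.zn j = l + 1 by omega)]; ring
    · rw [if_neg h1]; ring

lemma levD2_wbar (c : ChD) (w : ℕ → ℕ → ℝ) (n m : ℕ) (x y : ℝ) :
    levD2 n m (c.wbar w) x y =
      ∑ k ∈ range c.K, ∑ l ∈ range c.K, w k l * levD n (c.bump k) x * levD m (c.bump l) y := by
  unfold levD2
  have e : ∀ i, levD m (c.wbar w i) y =
      ∑ k ∈ range c.K, ∑ l ∈ range c.K, w k l * c.bump k i * levD m (c.bump l) y := by
    intro i
    rw [show c.wbar w i = _ from funext (wbar_eq c w i), levD_sum]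
    refine sum_congr rfl fun k _ => ?_
    rw [levD_sum]
    exact sum_congr rfl fun l _ => levD_mul _ _ _ _
  simp only [e]
  rw [levD_sum]
  refine sum_congr rfl fun k _ => ?_
  rw [levD_sum]
  refine sum_congr rfl fun l _ => ?_
  rw [levD_mul_const, levD_mul]

lemma abs_levD2_le (n m : ℕ) {G : ℤ → ℤ → ℝ} {M : ℝ} (h : ∀ i j, |G i j| ≤ M) (x y : ℝ) :
    |levD2 n m G x y| ≤ 2 * betaB * (2 * betaB * M) :=
  abs_levD_le n (fun i => abs_levD_le m (h i) y) x

lemma abs_wbar_le (c : ChD) {w : ℕ → ℕ → ℝ} (hw : ∀ k l, |w k l| ≤ 1) (i j : ℤ) :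
    |c.wbar w i j| ≤ 1 := by
  unfold ChD.wbar
  split_ifs
  · exact hw _ _
  · simp

/-- the interpolated on-site energies as a function on `P3` -/
def wf (c : ChD) (w : ℕ → ℕ → ℝ) (n m : ℕ) (x : P3) : ℝ := levD2 n m (c.wbar w) (x 0) (x 1)

lemma wf_eq (c : ChD) (w : ℕ → ℕ → ℝ) (n m : ℕ) : wf c w n m = fun x =>
    ∑ k ∈ range c.K, ∑ l ∈ range c.K,
      w k l * levD n (c.bump k) (x 0) * levD m (c.bump l) (x 1) :=
  funext fun _ => levD2_wbar c w n m _ _

lemma diff_levD {n : ℕ} (hn : n ≤ 7) (g : ℤ → ℝ) (i : Fin 3) :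
    Differentiable ℝ fun x : P3 => levD n g (x i) :=
  fun x => (hasFDerivAt_coord i (hasDerivAt_levD hn g (x i))).differentiableAt

lemma wf_diff (c : ChD) (w : ℕ → ℕ → ℝ) {n m : ℕ} (hn : n ≤ 7) (hm : m ≤ 7) :
    Differentiable ℝ (wf c w n m) := by
  rw [wf_eq]
  exact Differentiable.fun_sum fun k _ => Differentiable.fun_sum fun l _ =>
    ((diff_levD hn _ 0).const_mul _).mul (diff_levD hm _ 1)

lemma wf_cont (c : ChD) (w : ℕ → ℕ → ℝ) {n m : ℕ} (hn : n ≤ 8) (hm : m ≤ 8) :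
    Continuous (wf c w n m) := by
  rw [wf_eq]
  refine continuous_finsetSum _ fun k _ => continuous_finsetSum _ fun l _ => ?_
  have := continuous_levD hn (c.bump k)
  have := continuous_levD hm (c.bump l)
  fun_prop

lemma pd_wf (c : ChD) (w : ℕ → ℕ → ℝ) {n m : ℕ} (hn : n ≤ 7) (hm : m ≤ 7) (j : Fin 3) (x : P3) :
    pd j (wf c w n m) x = (if 0 = j then wf c w (n + 1) m x else 0) +
      if 1 = j then wf c w n (m + 1) x else 0 := by
  have d1 : ∀ k l, DifferentiableAt ℝ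
      (fun x : P3 => w k l * levD n (c.bump k) (x 0) * levD m (c.bump l) (x 1)) x :=
    fun k l => ((diff_levD hn _ 0).const_mul _).mul (diff_levD hm _ 1) x
  rw [wf_eq, pd_sum _ fun k _ => DifferentiableAt.fun_sum fun l _ => d1 k l]
  have e : ∀ k, pd j (fun x : P3 => ∑ l ∈ range c.K,
      w k l * levD n (c.bump k) (x 0) * levD m (c.bump l) (x 1)) x = ∑ l ∈ range c.K,
      ((if 0 = j then w k l * levD (n + 1) (c.bump k) (x 0) * levD m (c.bump l) (x 1) else 0) +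
        if 1 = j then w k l * levD n (c.bump k) (x 0) * levD (m + 1) (c.bump l) (x 1) else 0) := by
    intro k
    rw [pd_sum _ fun l _ => d1 k l]
    refine sum_congr rfl fun l _ => ?_
    rw [pd_mul ((diff_levD hn _ 0).const_mul _ x) (diff_levD hm _ 1 x),
      pd_const_mul _ (diff_levD hn _ 0 x), pd_coord 0 j (hasDerivAt_levD hn _ _),
      pd_coord 1 j (hasDerivAt_levD hm _ _)]
    split_ifs <;> ring
  simp only [e, sum_add_distrib, wf_eq]
  split_ifs <;> simp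

lemma bdM_wf (c : ChD) {w : ℕ → ℕ → ℝ} (hw : ∀ k l, |w k l| ≤ 1) {k n m : ℕ} (hn : n + k ≤ 8)
    (hm : m + k ≤ 8) : BdM k (2 * betaB * (2 * betaB * 1)) (wf c w n m) := by
  have hb : ∀ n m x, |wf c w n m x| ≤ 2 * betaB * (2 * betaB * 1) := fun n m x =>
    abs_levD2_le n m (abs_wbar_le c hw) _ _
  induction k generalizing n m with
  | zero => exact ⟨wf_cont c w (by omega) (by omega), hb n m⟩
  | succ k ih =>
    refine ⟨wf_diff c w (by omega) (by omega), hb n m, fun j => ?_⟩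
    have e := pd_wf c w (n := n) (m := m) (by omega) (by omega) j
    fin_cases j
    · exact (ih (n := n + 1) (m := m) (by omega) (by omega)).congr fun x => by rw [e x]; simp
    · exact (ih (n := n) (m := m + 1) (by omega) (by omega)).congr fun x => by rw [e x]; simp
    · exact (BdM.zero ((abs_nonneg _).trans (hb 0 0 0))).congr fun x => by
        rw [e x, if_neg (by decide), if_neg (by decide), add_zero]

lemma phi_pos (c : ChD) (i : ℤ) : (0 : ℝ) < c.phi i := by unfold ChD.phi; positivity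

lemma lev_phi_pos (c : ChD) (x : ℝ) : 0 < levD 0 c.phi x := levD_pos (phi_pos c) x

lemma half_pow_le {a b : ℕ} (h : b ≤ a + 1) : (1 / 2 : ℝ) ^ a ≤ 2 * (1 / 2) ^ b := by
  have : (1 / 2 : ℝ) ^ (a + 1) ≤ (1 / 2) ^ b := pow_le_pow_of_le_one (by norm_num) (by norm_num) h
  rw [pow_succ] at this
  linarith

variable {c : ChD} {m0 : ℕ} {θ : ℝ}

lemma phi_succ_le (h : c.OK m0 θ) (i : ℤ) : (c.phi (i + 1) : ℝ) ≤ 2 * c.phi i := by
  have := abs_le.mp (h.sig_step i)
  exact half_pow_le (by omega)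

lemma phi_le_succ (h : c.OK m0 θ) (i : ℤ) : (c.phi i : ℝ) ≤ 2 * c.phi (i + 1) := by
  have := abs_le.mp (h.sig_step i)
  exact half_pow_le (by omega)

/-- all derivatives of `φ` are bounded by `betaB * φ` -/
lemma bd_phi (h : c.OK m0 θ) {n k : ℕ} (hn : n + k ≤ 8) :
    Bd k betaB (levD 0 c.phi) (levD n c.phi) :=
  bd_levD_self hn (phi_succ_le h) (phi_le_succ h)

lemma bd_inv_phi (h : c.OK m0 θ) {k : ℕ} (hk : k ≤ 8) :
    Bd k (Bd.invC betaB k) (fun x => 1 / levD 0 c.phi x) fun x => 1 / levD 0 c.phi x :=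
  (bd_phi h (by omega)).inv one_le_betaB (lev_phi_pos c)

/-- the bound for `u0` and six derivatives -/
def cU : ℝ := 2 ^ 6 * betaB * Bd.invC betaB 6

lemma one_le_cU : 1 ≤ cU :=
  one_le_mul_of_one_le_of_one_le (one_le_mul_of_one_le_of_one_le (by norm_num) one_le_betaB)
    (Bd.one_le_invC one_le_betaB 6)

lemma bd_u0 (h : c.OK m0 θ) : Bd 6 cU (fun _ => 1) c.u0 := by
  have h1 := ((bd_phi h (n := 2) (k := 6) le_rfl).mul (bd_inv_phi h (by omega))).const_mul (1 / 2)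
  refine (h1.mono fun x => ?_).congr fun x => ?_
  · have := (lev_phi_pos c x).ne'
    have h2 := one_le_cU
    rw [mul_one_div_cancel this, abs_of_pos (by norm_num : (0 : ℝ) < 1 / 2)]
    unfold cU at *
    linarith
  · unfold ChD.u0
    have := (lev_phi_pos c x).ne'
    field_simp

lemma hasDerivAt_u0 (c : ChD) (x : ℝ) : HasDerivAt c.u0 (c.u1 x) x := by
  have h0 := (lev_phi_pos c x).ne'
  have := (hasDerivAt_levD (n := 2) (by omega) c.phi x).fun_div
    ((hasDerivAt_levD (n := 0) (by omega) c.phi x).const_mul 2) (mul_ne_zero two_ne_zero h0)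
  refine HasDerivAt.congr_deriv this ?_
  unfold ChD.u1
  field_simp

lemma abs_eta_le (c : ChD) (i : ℤ) : |(c.eta i : ℝ)| ≤ 1 := by
  unfold ChD.eta; split_ifs <;> simp

lemma abs_zeta_le (Lc : ℕ) (i : ℤ) : |(zeta Lc i : ℝ)| ≤ 1 := by
  unfold zeta; split_ifs <;> simp

lemma abs_bump_le (c : ChD) (k : ℕ) (i : ℤ) : |(c.bump k i : ℝ)| ≤ 1 := by
  unfold ChD.bump; split_ifs <;> simp

lemma betaD_cast (n : ℕ) (t : ℚ) : ((betaD n t : ℚ) : ℝ) = betaD n (t : ℝ) := by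
  simp [betaD]

lemma levD_cast (n : ℕ) (g : ℤ → ℚ) (x : ℚ) :
    ((levD n g x : ℚ) : ℝ) = levD n (fun i => (g i : ℝ)) (x : ℝ) := by
  unfold levD
  rw [Rat.floor_cast, ← Rat.cast_fract, ← betaD_cast]
  split_ifs <;> simp

lemma levD2_cast (n m : ℕ) (G : ℤ → ℤ → ℚ) (x y : ℚ) :
    ((levD2 n m G x y : ℚ) : ℝ) = levD2 n m (fun i j => (G i j : ℝ)) (x : ℝ) (y : ℝ) := by
  unfold levD2
  simp only [levD_cast]

lemma phi_cast (c : ChD) : (fun i => ((c.phi i : ℚ) : ℝ)) = c.phi := by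
  funext i; simp [ChD.phi]

lemma eta_cast (c : ChD) : (fun i => ((c.eta i : ℚ) : ℝ)) = c.eta := by
  funext i; unfold ChD.eta; split_ifs <;> simp

lemma zeta_cast (Lc : ℕ) : (fun i => ((zeta Lc i : ℚ) : ℝ)) = zeta Lc := by
  funext i; unfold zeta; split_ifs <;> simp

lemma wbar_cast (c : ChD) (w : ℕ → ℕ → ℚ) :
    (fun i j => ((c.wbar w i j : ℚ) : ℝ)) = c.wbar fun k l => (w k l : ℝ) := by
  funext i j; unfold ChD.wbar; split_ifs <;> simp

lemma u0_cast (c : ChD) (x : ℚ) : ((c.u0 x : ℚ) : ℝ) = c.u0 (x : ℝ) := by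
  simp [ChD.u0, levD_cast, phi_cast]

lemma u1_cast (c : ChD) (x : ℚ) : ((c.u1 x : ℚ) : ℝ) = c.u1 (x : ℝ) := by
  simp [ChD.u1, levD_cast, phi_cast]

lemma G0_cast (c : ChD) (w : ℕ → ℕ → ℚ) (H : ℕ) (x y : ℚ) :
    ((G0 c w H x y : ℚ) : ℝ) = G0 c (fun k l => (w k l : ℝ)) H (x : ℝ) (y : ℝ) := by
  simp [G0, u0_cast, levD2_cast, wbar_cast]

end SM

open SM

theorem f0_ok (H : ℕ) : ∃ CF : ℝ, 1 ≤ CF ∧ ∀ (c : ChD) (m0 : ℕ) (θ : ℝ) (w : ℕ → ℕ → ℝ) (Lc : ℕ),
    c.OK m0 θ → (∀ k l, |w k l| ≤ 1) →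
    BdM 6 CF (fun x : P3 => F0 c w H Lc (x 0) (x 1) (x 2)) ∧
    (∀ (i : Fin 3) (x : P3), pd i (fun x : P3 => F0 c w H Lc (x 0) (x 1) (x 2)) x =
      dF0 c w H Lc i (x 0) (x 1) (x 2)) := by
  refine ⟨max 1 (2 ^ 6 * (2 ^ 6 * (2 ^ 6 * (2 * betaB * 1) * (2 * betaB * 1)) * (2 * betaB * 1)) *
    (cU + cU + 2 * betaB * (2 * betaB * 1) + |(H : ℝ)|)), le_max_left _ _, ?_⟩
  intro c m0 θ w Lc h hw
  have bz := (BdM.coord (bd_levD_bounded (n := 0) (k := 6) (by omega) (abs_zeta_le Lc)) 2)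
  have b0 := (BdM.coord (bd_levD_bounded (n := 0) (k := 6) (by omega) (abs_eta_le c)) 0)
  have b1 := (BdM.coord (bd_levD_bounded (n := 0) (k := 6) (by omega) (abs_eta_le c)) 1)
  have u0 := BdM.coord (bd_u0 h) 0
  have u1 := BdM.coord (bd_u0 h) 1
  have bw := bdM_wf c hw (k := 6) (n := 0) (m := 0) (by omega) (by omega)
  have bG := ((u0.add u1).add bw).sub (BdM.const (H : ℝ))
  refine ⟨(((bz.mul b0).mul b1).mul bG).mono (le_max_right _ _), fun i x => ?_⟩
  have e : (fun x : P3 => F0 c w H Lc (x 0) (x 1) (x 2)) = fun x : P3 =>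
      levD 0 (zeta Lc) (x 2) * levD 0 c.eta (x 0) * levD 0 c.eta (x 1) *
        (c.u0 (x 0) + c.u0 (x 1) + wf c w 0 0 x - H) := rfl
  rw [e, pd_mul (((bz.mul b0).mul b1).diff x) (bG.diff x), pd_mul ((bz.mul b0).diff x) (b1.diff x),
    pd_mul (bz.diff x) (b0.diff x), pd_sub (((u0.add u1).add bw).diff x) (differentiableAt_const _),
    pd_add ((u0.add u1).diff x) (bw.diff x), pd_add (u0.diff x) (u1.diff x), pd_const,
    pd_coord 2 i (hasDerivAt_levD (by omega) _ _), pd_coord 0 i (hasDerivAt_levD (by omega) _ _),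
    pd_coord 1 i (hasDerivAt_levD (by omega) _ _), pd_coord 0 i (hasDerivAt_u0 c _),
    pd_coord 1 i (hasDerivAt_u0 c _), pd_wf c w (by omega) (by omega)]
  fin_cases i <;> simp [dF0, G0, wf] <;> ring

theorem lev_facts (c : ChD) (Lc : ℕ) (w : ℕ → ℕ → ℝ) :
    (∀ x : ℝ, 0 ≤ levD 0 c.eta x ∧ levD 0 c.eta x ≤ 1) ∧
    (∀ x : ℝ, 1 ≤ x → x ≤ (c.len : ℝ) - 1 → levD 0 c.eta x = 1) ∧
    (∀ x : ℝ, x ∉ Set.Icc (0 : ℝ) c.len → levD 0 c.eta x = 0) ∧
    (∀ z : ℝ, 0 ≤ levD 0 (zeta Lc) z ∧ levD 0 (zeta Lc) z ≤ 1) ∧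
    (∀ z : ℝ, |z| ≤ Lc → levD 0 (zeta Lc) z = 1) ∧
    (∀ z : ℝ, (Lc : ℝ) + 1 ≤ |z| → levD 0 (zeta Lc) z = 0) ∧
    (∀ x y : ℝ, levD2 0 0 (c.wbar w) x y =
      ∑ k ∈ range c.K, ∑ l ∈ range c.K, w k l * levD 0 (c.bump k) x * levD 0 (c.bump l) y) := by
  refine ⟨fun x => ⟨le_levD (fun i => ?_) x, levD_le (fun i => ?_) x⟩, fun x h1 h2 => ?_,
    fun x hx => ?_, fun z => ⟨le_levD (fun i => ?_) z, levD_le (fun i => ?_) z⟩, fun z hz => ?_,
    fun z hz => ?_, levD2_wbar c w 0 0⟩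
  · unfold ChD.eta; split_ifs <;> simp
  · unfold ChD.eta; split_ifs <;> simp
  · refine levD_zero_const_on (A := 1) (B := c.len - 1) (fun i a b => ?_) (by simpa using h1)
      (by simpa using h2)
    unfold ChD.eta; rw [if_pos ⟨a, by omega⟩]
  · rw [Set.mem_Icc, not_and_or, not_le, not_le] at hx
    rcases hx with hx | hx
    · rw [levD_congr_le (g' := fun _ => 0) (by omega) (B := 0) (fun i hi => ?_)
        (by simpa using hx.le), levD_const, if_pos rfl]
      unfold ChD.eta; rw [if_neg (by omega)]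
    · rw [levD_congr_ge (g' := fun _ => 0) (by omega) (A := c.len) (fun i hi => ?_)
        (by simpa using hx.le), levD_const, if_pos rfl]
      unfold ChD.eta; rw [if_neg (by omega)]
  · unfold zeta; split_ifs <;> simp
  · unfold zeta; split_ifs <;> simp
  · rw [abs_le] at hz
    refine levD_zero_const_on (A := -Lc) (B := Lc) (fun i a b => ?_) (by simpa using hz.1)
      (by simpa using hz.2)
    unfold zeta; rw [if_pos (abs_le.mpr ⟨a, b⟩)]
  · rcases le_abs.mp hz with hz | hz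
    · rw [levD_congr_ge (g' := fun _ => 0) (by omega) (A := Lc + 1) (fun i hi => ?_)
        (by simpa using hz), levD_const, if_pos rfl]
      unfold zeta; rw [if_neg (by rw [abs_le]; omega)]
    · rw [levD_congr_le (g' := fun _ => 0) (by omega) (B := -(Lc + 1)) (fun i hi => ?_)
        (by push_cast; linarith), levD_const, if_pos rfl]
      unfold zeta; rw [if_neg (by rw [abs_le]; omega)]

theorem dF0_cast (c : ChD) (w : ℕ → ℕ → ℚ) (H Lc i : ℕ) (x y z : ℚ) :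
    ((dF0 c w H Lc i x y z : ℚ) : ℝ) =
      dF0 c (fun k l => (w k l : ℝ)) H Lc i (x : ℝ) (y : ℝ) (z : ℝ) := by
  unfold dF0
  split_ifs <;>
    simp [G0_cast, u1_cast, levD_cast, levD2_cast, wbar_cast, eta_cast, zeta_cast]

end

end Vale.Agent.P370Z
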