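import Vale.Agent.P370Z.SM.Bd

/-!
# P370, block SM: derivative bounds in three variables
-/

namespace Vale.Agent.P370Z

open Finset

noncomputable section

namespace SM

lemma hasFDerivAt_coord {f : ℝ → ℝ} {f' : ℝ} (i : Fin 3) {x : P3} (h : HasDerivAt f f' (x i)) :
    HasFDerivAt (fun y : P3 => f (y i))
      (f' • (ContinuousLinearMap.proj i : P3 →L[ℝ] ℝ)) x :=
  h.comp_hasFDerivAt x (ContinuousLinearMap.proj (R := ℝ) (φ := fun _ : Fin 3 => ℝ) i).hasFDerivAt

lemma pd_coord {f : ℝ → ℝ} {f' : ℝ} (i j : Fin 3) {x : P3} (h : HasDerivAt f f' (x i)) :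
    pd j (fun y : P3 => f (y i)) x = if i = j then f' else 0 := by
  unfold pd
  rw [(hasFDerivAt_coord i h).fderiv]
  by_cases hij : i = j
  · subst hij; simp
  · simp [hij]

lemma pd_add {f g : P3 → ℝ} {x : P3} (hf : DifferentiableAt ℝ f x) (hg : DifferentiableAt ℝ g x)
    (j : Fin 3) : pd j (fun y => f y + g y) x = pd j f x + pd j g x := by
  unfold pd
  rw [fderiv_fun_add hf hg]; rfl

lemma pd_sub {f g : P3 → ℝ} {x : P3} (hf : DifferentiableAt ℝ f x) (hg : DifferentiableAt ℝ g x)
    (j : Fin 3) : pd j (fun y => f y - g y) x = pd j f x - pd j g x := by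
  unfold pd
  rw [fderiv_fun_sub hf hg]; rfl

lemma pd_mul {f g : P3 → ℝ} {x : P3} (hf : DifferentiableAt ℝ f x) (hg : DifferentiableAt ℝ g x)
    (j : Fin 3) : pd j (fun y => f y * g y) x = pd j f x * g x + f x * pd j g x := by
  unfold pd
  rw [fderiv_fun_mul hf hg]
  simp; ring

lemma pd_const (a : ℝ) (j : Fin 3) (x : P3) : pd j (fun _ => a) x = 0 := by
  simp [pd]

lemma pd_const_mul (a : ℝ) {f : P3 → ℝ} {x : P3} (hf : DifferentiableAt ℝ f x) (j : Fin 3) :
    pd j (fun y => a * f y) x = a * pd j f x := by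
  rw [pd_mul (differentiableAt_const a) hf, pd_const]; ring

lemma pd_sum {ι : Type*} (s : Finset ι) {f : ι → P3 → ℝ} {x : P3}
    (hf : ∀ i ∈ s, DifferentiableAt ℝ (f i) x) (j : Fin 3) :
    pd j (fun y => ∑ i ∈ s, f i y) x = ∑ i ∈ s, pd j (f i) x := by
  unfold pd
  rw [fderiv_fun_sum hf]; simp

/-- the derivative along a coordinate line -/
lemma hasDerivAt_update {f : P3 → ℝ} (hf : Differentiable ℝ f) (x : P3) (i : Fin 3) (t : ℝ) :
    HasDerivAt (fun s => f (Function.update x i s)) (pd i f (Function.update x i t)) t :=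
  (hf _).hasFDerivAt.comp_hasDerivAt t (_root_.hasDerivAt_update x i t)

end SM

namespace BdM

open SM

variable {k : ℕ} {C C' : ℝ} {f g : P3 → ℝ}

lemma cont (h : BdM k C f) : Continuous f := by
  cases k with
  | zero => exact h.1
  | succ k => exact h.1.continuous

lemma le (h : BdM k C f) (x : P3) : |f x| ≤ C := by
  cases k with
  | zero => exact h.2 x
  | succ k => exact h.2.1 x

lemma nonneg (h : BdM k C f) : 0 ≤ C := (abs_nonneg _).trans (h.le 0)

lemma diff (h : BdM (k + 1) C f) : Differentiable ℝ f := h.1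

lemma pd (h : BdM (k + 1) C f) (i : Fin 3) : BdM k C (pd i f) := h.2.2 i

lemma congr (h : BdM k C f) (e : ∀ x, f x = g x) : BdM k C g := by
  rwa [← show f = g from funext e]

lemma pred (h : BdM (k + 1) C f) : BdM k C f := by
  induction k generalizing f with
  | zero => exact ⟨h.cont, h.le⟩
  | succ k ih => exact ⟨h.1, h.2.1, fun i => ih (h.pd i)⟩

lemma of_le {k' : ℕ} (hk : k ≤ k') (h : BdM k' C f) : BdM k C f := by
  induction hk with
  | refl => exact h
  | step _ ih => exact ih h.pred

lemma mono (hC : C ≤ C') (h : BdM k C f) : BdM k C' f := by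
  induction k generalizing f with
  | zero => exact ⟨h.1, fun x => (h.2 x).trans hC⟩
  | succ k ih => exact ⟨h.1, fun x => (h.2.1 x).trans hC, fun i => ih (h.pd i)⟩

lemma zero (hC : 0 ≤ C) : BdM k C fun _ => 0 := by
  induction k with
  | zero => exact ⟨continuous_const, fun x => by simpa using hC⟩
  | succ k ih =>
    exact ⟨differentiable_const _, fun x => by simpa using hC,
      fun i => ih.congr fun x => (pd_const 0 i x).symm⟩

lemma const (a : ℝ) : BdM k |a| fun _ => a := by
  cases k with
  | zero => exact ⟨continuous_const, fun x => le_rfl⟩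
  | succ k =>
    exact ⟨differentiable_const _, fun x => le_rfl,
      fun i => (zero (abs_nonneg a)).congr fun x => (pd_const a i x).symm⟩

lemma add (h : BdM k C f) (h' : BdM k C' g) : BdM k (C + C') fun x => f x + g x := by
  induction k generalizing f g with
  | zero => exact ⟨h.1.add h'.1, fun x => (abs_add_le _ _).trans (add_le_add (h.le x) (h'.le x))⟩
  | succ k ih =>
    exact ⟨h.1.add h'.1, fun x => (abs_add_le _ _).trans (add_le_add (h.le x) (h'.le x)),
      fun i => (ih (h.pd i) (h'.pd i)).congr fun x => (pd_add (h.1 x) (h'.1 x) i).symm⟩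

lemma mul (h : BdM k C f) (h' : BdM k C' g) : BdM k (2 ^ k * C * C') fun x => f x * g x := by
  have hb : ∀ {k : ℕ} {f g : P3 → ℝ}, BdM k C f → BdM k C' g → ∀ x,
      |f x * g x| ≤ 2 ^ k * C * C' := fun {k f g} h h' x => by
    have h3 : |f x| * |g x| ≤ C * C' := mul_le_mul (h.le x) (h'.le x) (abs_nonneg _) h.nonneg
    have h4 : 0 ≤ C * C' := mul_nonneg h.nonneg h'.nonneg
    have h5 : (1 : ℝ) ≤ 2 ^ k := one_le_pow₀ one_le_two
    rw [abs_mul]
    nlinarith
  induction k generalizing f g with
  | zero => exact ⟨h.1.mul h'.1, hb h h'⟩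
  | succ k ih =>
    refine ⟨h.1.mul h'.1, hb h h', fun i => ?_⟩
    refine (((ih (h.pd i) h'.pred).add (ih h.pred (h'.pd i))).mono (le_of_eq (by ring))).congr
      fun x => (pd_mul (h.1 x) (h'.1 x) i).symm

lemma const_mul (a : ℝ) (h : BdM k C f) : BdM k (|a| * C) fun x => a * f x := by
  have hb : ∀ {k : ℕ} {f : P3 → ℝ}, BdM k C f → ∀ x, |a * f x| ≤ |a| * C := fun h x => by
    rw [abs_mul]; exact mul_le_mul_of_nonneg_left (h.le x) (abs_nonneg _)
  induction k generalizing f with
  | zero => exact ⟨continuous_const.mul h.1, hb h⟩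
  | succ k ih =>
    exact ⟨h.1.const_mul a, hb h,
      fun i => (ih (h.pd i)).congr fun x => (pd_const_mul a (h.1 x) i).symm⟩

lemma neg (h : BdM k C f) : BdM k C fun x => -f x := by
  simpa using h.const_mul (-1)

lemma sub (h : BdM k C f) (h' : BdM k C' g) : BdM k (C + C') fun x => f x - g x :=
  (h.add h'.neg).congr fun x => by ring

lemma sum {ι : Type*} (s : Finset ι) {C : ι → ℝ} {f : ι → P3 → ℝ}
    (h : ∀ i ∈ s, BdM k (C i) (f i)) : BdM k (∑ i ∈ s, C i) fun x => ∑ i ∈ s, f i x := by
  classical
  induction s using Finset.induction_on with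
  | empty => simpa using zero (k := k) (C := 0) le_rfl
  | insert a s ha ih =>
    simp only [sum_insert ha]
    exact (h a (mem_insert_self _ _)).add (ih fun i hi => h i (mem_insert_of_mem hi))

/-- functions of one coordinate -/
lemma coord {f : ℝ → ℝ} (h : Bd k C (fun _ => 1) f) (i : Fin 3) : BdM k C fun x => f (x i) := by
  induction k generalizing f with
  | zero => exact ⟨h.1.comp (continuous_apply i), fun x => by simpa using h.le (x i)⟩
  | succ k ih =>
    refine ⟨fun x => (hasFDerivAt_coord i (h.hasDerivAt (x i))).differentiableAt,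
      fun x => by simpa using h.le (x i), fun j => ?_⟩
    by_cases hij : i = j
    · exact (ih h.deriv).congr fun x => by rw [pd_coord i j (h.hasDerivAt (x i)), if_pos hij]
    · exact (zero ((abs_nonneg _).trans (by simpa using h.le 0))).congr fun x => by
        rw [pd_coord i j (h.hasDerivAt (x i)), if_neg hij]

lemma fderiv_eq (f : P3 → ℝ) (x : P3) :
    fderiv ℝ f x = ∑ i, P370Z.pd i f x • (ContinuousLinearMap.proj i : P3 →L[ℝ] ℝ) := by
  ext v
  conv_lhs => rw [show v = ∑ i, v i • (Pi.single i 1 : P3) from pi_eq_sum_univ' v]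
  simp [P370Z.pd, mul_comm]

lemma contDiff (h : BdM k C f) : ContDiff ℝ k f := by
  induction k generalizing f with
  | zero => exact contDiff_zero.mpr h.1
  | succ k ih =>
    rw [Nat.cast_succ, contDiff_succ_iff_fderiv]
    refine ⟨h.1, by simp, ?_⟩
    rw [show fderiv ℝ f = _ from funext (fderiv_eq f)]
    exact ContDiff.sum fun i _ => (ih (h.pd i)).smul contDiff_const

lemma contDiff_one (h : BdM (k + 1) C f) : ContDiff ℝ 1 f := by
  simpa using (h.of_le (by omega : 1 ≤ k + 1)).contDiff

/-- the restriction to a coordinate line -/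
lemma line (h : BdM k C f) (x : P3) (i : Fin 3) :
    Bd k C (fun _ => 1) fun s => f (Function.update x i s) := by
  induction k generalizing f with
  | zero =>
    exact ⟨h.1.comp (continuous_const.update i continuous_id), fun s => by simpa using h.le _⟩
  | succ k ih =>
    exact Bd.of_hasDerivAt (SM.hasDerivAt_update h.1 x i) (fun s => by simpa using h.le _)
      (ih (h.pd i))

/-- mean value inequality along a coordinate -/
lemma lip_coord (h : BdM (k + 1) C f) (x : P3) (i : Fin 3) (s t : ℝ) :
    |f (Function.update x i s) - f (Function.update x i t)| ≤ C * |s - t| := by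
  have := Convex.norm_image_sub_le_of_norm_hasDerivWithin_le (𝕜 := ℝ) (s := Set.univ)
    (f := fun s => f (Function.update x i s)) (C := C) (x := t) (y := s)
    (fun t _ => (SM.hasDerivAt_update h.1 x i t).hasDerivWithinAt)
    (fun t _ => (h.pd i).le _) convex_univ trivial trivial
  simpa using this

/-- mean value inequality -/
lemma lip (h : BdM (k + 1) C f) (x y : P3) : |f x - f y| ≤ C * ∑ i, |x i - y i| := by
  have e0 := h.lip_coord x 0 (x 0) (y 0)
  have e1 := h.lip_coord (Function.update x 0 (y 0)) 1 (x 1) (y 1)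
  have e2 := h.lip_coord y 2 (x 2) (y 2)
  have a0 : Function.update x 0 (x 0) = x := Function.update_eq_self _ _
  have a1 : Function.update (Function.update x 0 (y 0)) 1 (x 1) = Function.update x 0 (y 0) := by
    ext i; fin_cases i <;> simp
  have a2 : Function.update (Function.update x 0 (y 0)) 1 (y 1) = Function.update y 2 (x 2) := by
    ext i; fin_cases i <;> simp
  have a3 : Function.update y 2 (y 2) = y := Function.update_eq_self _ _
  rw [a0] at e0
  rw [a1, a2] at e1
  rw [a3] at e2
  rw [Fin.sum_univ_three]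
  have t1 := abs_sub_le (f x) (f (Function.update x 0 (y 0))) (f y)
  have t2 := abs_sub_le (f (Function.update x 0 (y 0))) (f (Function.update y 2 (x 2))) (f y)
  linarith

end BdM

end

end Vale.Agent.P370Z
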